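import Mathlib

/-!
# Basic facts about Gaussian primes
-/

namespace Vale.Agent.P015

open GaussianInt

lemma isUnit_norm {e : GaussianInt} (he : IsUnit e) : e.norm = 1 := by
  have h := Zsqrtd.norm_eq_one_iff.mpr he
  have h0 := GaussianInt.norm_nonneg e
  omega

lemma norm_star_gi (w : GaussianInt) : (star w).norm = w.norm := by
  simp [Zsqrtd.norm]

/-- A Gaussian prime whose norm is divisible by a prime `p ≡ 1 (mod 4)` has norm `p`. -/
lemma prime_norm_eq {w : GaussianInt} (hw : Prime w) {p : ℕ} (hp : p.Prime) (h4 : p % 4 = 1)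
    (hd : (p : ℤ) ∣ w.norm) : w.norm = p := by
  haveI : Fact p.Prime := ⟨hp⟩
  obtain ⟨a, b, hab⟩ := Nat.Prime.sq_add_sq (p := p) (by omega)
  set π : GaussianInt := ⟨a, b⟩ with hπdef
  have hπn : π.norm = p := by
    simp [hπdef, Zsqrtd.norm, ← hab]; ring
  have hnu : ¬ IsUnit π := fun h => by
    have := isUnit_norm h
    rw [hπn] at this
    exact hp.one_lt.ne' (by exact_mod_cast this)
  have hirr : Irreducible π := by
    refine ⟨hnu, fun x y hxy => ?_⟩
    have h1 : (p : ℕ) = x.norm.natAbs * y.norm.natAbs := by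
      rw [← Int.natAbs_mul, ← Zsqrtd.norm_mul, ← hxy, hπn]; simp
    rcases hp.eq_one_or_self_of_dvd _ ⟨_, h1⟩ with h | h
    · exact Or.inl (Zsqrtd.norm_eq_one_iff.mp h)
    · right
      refine Zsqrtd.norm_eq_one_iff.mp ?_
      rw [h] at h1
      exact (Nat.eq_of_mul_eq_mul_left hp.pos (by linarith : p * y.norm.natAbs = p * 1))
  have hπp : Prime π := irreducible_iff_prime.mp hirr
  have hdvd : π ∣ w * star w := by
    rw [← Zsqrtd.norm_eq_mul_conj]
    obtain ⟨k, hk⟩ := hd
    refine dvd_trans ?_ (show ((p : ℤ) : GaussianInt) ∣ (w.norm : GaussianInt) from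
      ⟨(k : GaussianInt), by rw [hk]; push_cast; ring⟩)
    exact ⟨star π, by rw [← Zsqrtd.norm_eq_mul_conj, hπn]⟩
  have key : ∀ σ : GaussianInt, σ.norm = p → σ ∣ w → w.norm = p := by
    intro σ hσ ⟨c, hc⟩
    rcases hw.irreducible.isUnit_or_isUnit hc with h | h
    · have := isUnit_norm h
      rw [hσ] at this
      exact absurd (by exact_mod_cast this) hp.one_lt.ne'
    · rw [hc, Zsqrtd.norm_mul, hσ, isUnit_norm h, mul_one]
  rcases hπp.2.2 _ _ hdvd with h | h
  · exact key π hπn h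
  · obtain ⟨c, hc⟩ := h
    refine key (star π) (by rw [norm_star_gi, hπn]) ⟨star c, ?_⟩
    rw [← star_star w, hc]; simp [mul_comm]

/-- The norm as a sum of squares. -/
lemma norm_eq_sq (w : GaussianInt) : w.norm = w.re * w.re + w.im * w.im := by
  simp [Zsqrtd.norm]

lemma toComplex_re_int (w : GaussianInt) : (GaussianInt.toComplex w).re = (w.re : ℝ) :=
  (GaussianInt.intCast_re w).symm

lemma toComplex_im_int (w : GaussianInt) : (GaussianInt.toComplex w).im = (w.im : ℝ) :=
  (GaussianInt.intCast_im w).symm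

/-- A square root of `-1` modulo a prime congruent to `1` modulo `4`. -/
lemma exists_sqrt_neg_one {p : ℕ} (hp : p.Prime) (h4 : p % 4 = 1) :
    ∃ r : ZMod p, r * r = -1 := by
  haveI : Fact p.Prime := ⟨hp⟩
  obtain ⟨r, hr⟩ := (ZMod.exists_sq_eq_neg_one_iff (p := p)).mpr (by omega)
  exact ⟨r, hr.symm⟩

end Vale.Agent.P015
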