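import Mathlib

/-!
# Sums of reciprocals of primes congruent to one modulo four

An elementary lower bound `∑_{p ≤ N, p ≡ 1 (4)} 1/p ≥ (1/2) log log N - C`, and an
elementary upper bound `∑_{p ≤ N} 1/p ≤ C (1 + log log N)`.
-/

namespace Vale.Agent.P015

open Finset
open scoped ArithmeticFunction.zeta

/-- The primes congruent to `1` modulo `4` that are at most `N`. -/
def splitPrimes (N : ℕ) : Finset ℕ := (Finset.range (N + 1)).filter fun p => p.Prime ∧ p % 4 = 1

lemma mem_splitPrimes {N p : ℕ} : p ∈ splitPrimes N ↔ p ≤ N ∧ p.Prime ∧ p % 4 = 1 := by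
  simp [splitPrimes]

/-- `χ₄(n)/n`. -/
noncomputable def chiDiv : ArithmeticFunction ℝ :=
  ⟨fun n => ((ZMod.χ₄ (n : ZMod 4) : ℤ) : ℝ) / n, by simp⟩

/-- `1/n`. -/
noncomputable def invId : ArithmeticFunction ℝ :=
  ⟨fun n => (1 : ℝ) / n, by simp⟩

lemma chiDiv_apply (n : ℕ) : chiDiv n = ((ZMod.χ₄ (n : ZMod 4) : ℤ) : ℝ) / n := rfl

lemma invId_apply (n : ℕ) : invId n = (1 : ℝ) / n := rfl

lemma chiDiv_mult : chiDiv.IsMultiplicative := by
  refine ⟨by simp [chiDiv_apply], fun {m n} _ => ?_⟩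
  simp only [chiDiv_apply, Nat.cast_mul, map_mul, Int.cast_mul]
  ring

lemma invId_mult : invId.IsMultiplicative := by
  refine ⟨by simp [invId_apply], fun {m n} _ => ?_⟩
  simp only [invId_apply, Nat.cast_mul]
  ring

/-- The weight `g(m)/m` with `g(m) = ∑_{a ∣ m} χ₄(a)`. -/
noncomputable def gDiv : ArithmeticFunction ℝ := chiDiv * invId

lemma gDiv_mult : gDiv.IsMultiplicative := chiDiv_mult.mul invId_mult

lemma gDiv_prime_pow {p : ℕ} (hp : p.Prime) (e : ℕ) :
    gDiv (p ^ e) =
      (∑ i ∈ range (e + 1), ((ZMod.χ₄ (p : ZMod 4) : ℤ) : ℝ) ^ i) / (p : ℝ) ^ e := by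
  rw [gDiv, ArithmeticFunction.mul_apply,
    Nat.sum_divisorsAntidiagonal (fun a b => chiDiv a * invId b),
    Nat.sum_divisors_prime_pow hp, Finset.sum_div]
  refine Finset.sum_congr rfl fun i hi => ?_
  have hi' : i ≤ e := by simp at hi; omega
  rw [Nat.pow_div hi' hp.pos]
  simp only [chiDiv_apply, invId_apply, Nat.cast_pow, map_pow, Int.cast_pow]
  rw [div_mul_div_comm, mul_one, ← pow_add, Nat.add_sub_cancel' hi']

lemma chi_cases (p : ℕ) :
    ((ZMod.χ₄ (p : ZMod 4) : ℤ) : ℝ) = 0 ∨ ((ZMod.χ₄ (p : ZMod 4) : ℤ) : ℝ) = 1 ∨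
      ((ZMod.χ₄ (p : ZMod 4) : ℤ) : ℝ) = -1 := by
  rw [ZMod.χ₄_nat_eq_if_mod_four]
  split_ifs <;> simp

lemma geom_nonneg {x : ℝ} (hx : x = 0 ∨ x = 1 ∨ x = -1) (e : ℕ) :
    0 ≤ ∑ i ∈ range (e + 1), x ^ i := by
  rcases hx with h | h | h <;> subst h
  · exact Finset.sum_nonneg fun i _ => by positivity
  · exact Finset.sum_nonneg fun i _ => by positivity
  · rw [neg_one_geom_sum]
    split_ifs <;> norm_num

lemma gDiv_nonneg (m : ℕ) : 0 ≤ gDiv m := by
  rcases Nat.eq_zero_or_pos m with h | h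
  · subst h; simp
  · rw [ArithmeticFunction.IsMultiplicative.multiplicative_factorization _ gDiv_mult h.ne']
    refine Finset.prod_nonneg fun p hp => ?_
    have hp' : p.Prime := Nat.prime_of_mem_primeFactors (Nat.support_factorization m ▸ hp)
    simp only
    rw [gDiv_prime_pow hp']
    exact div_nonneg (geom_nonneg (chi_cases p) _) (by positivity)

/-- Alternating sums of antitone nonnegative sequences are nonnegative. -/
lemma alt_sum_nonneg (N : ℕ) : ∀ f : ℕ → ℝ, Antitone f → (∀ i, 0 ≤ f i) →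
    0 ≤ ∑ i ∈ range N, (-1 : ℝ) ^ i * f i := by
  induction N using Nat.strong_induction_on with
  | _ N ih =>
    intro f hf h0
    match N with
    | 0 => simp
    | 1 => simpa using h0 0
    | (M + 2) =>
      have hI := ih M (by omega) (fun i => f (i + 2))
        (fun a b hab => hf (by omega)) (fun i => h0 _)
      rw [Finset.sum_range_succ', Finset.sum_range_succ']
      have h1 := hf (show (0 : ℕ) ≤ 1 by omega)
      have : ∀ i, (-1 : ℝ) ^ (i + 1 + 1) * f (i + 1 + 1) = (-1 : ℝ) ^ i * f (i + 2) := by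
        intro i; ring_nf
      simp only [this]
      norm_num
      linarith

lemma alt_sum_ge (N : ℕ) (f : ℕ → ℝ) (hf : Antitone f) (h0 : ∀ i, 0 ≤ f i) :
    f 0 - f 1 ≤ ∑ i ∈ range (N + 2), (-1 : ℝ) ^ i * f i := by
  rw [Finset.sum_range_succ', Finset.sum_range_succ']
  have hI := alt_sum_nonneg N (fun i => f (i + 2)) (fun a b hab => hf (by omega)) (fun i => h0 _)
  have : ∀ i, (-1 : ℝ) ^ (i + 1 + 1) * f (i + 1 + 1) = (-1 : ℝ) ^ i * f (i + 2) := by
    intro i; ring_nf
  simp only [this]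
  norm_num
  linarith

/-- Harmonic numbers. -/
noncomputable def harm (M : ℕ) : ℝ := ∑ b ∈ Icc 1 M, (1 : ℝ) / b

lemma harm_eq (M : ℕ) : harm M = ((harmonic M : ℚ) : ℝ) := by
  rw [harm, harmonic_eq_sum_Icc]
  push_cast
  simp [one_div]

lemma harm_nonneg (M : ℕ) : 0 ≤ harm M := Finset.sum_nonneg fun b _ => by positivity

lemma harm_mono : Monotone harm := fun a b hab =>
  Finset.sum_le_sum_of_subset_of_nonneg (Finset.Icc_subset_Icc_right hab)
    (fun i _ _ => by positivity)

lemma sum_chi_harm_ge (N : ℕ) :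
    2 / 3 * harm N ≤ ∑ a ∈ Icc 1 N, chiDiv a * harm (N / a) := by
  set f : ℕ → ℝ := fun i => harm (N / (2 * i + 1)) / (2 * i + 1 : ℕ) with hfdef
  have hf : Antitone f := by
    intro i j hij
    simp only [hfdef]
    gcongr
    · exact harm_nonneg _
    · exact harm_mono (Nat.div_le_div_left (by omega) (by omega))
  have h0 : ∀ i, 0 ≤ f i := fun i => div_nonneg (harm_nonneg _) (by positivity)
  -- extend the range: terms with `a > N` vanish since `harm 0 = 0`
  set F : ℕ → ℝ := fun a => chiDiv a * harm (N / a) with hFdef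
  have hFz : ∀ a, (a = 0 ∨ N < a) → F a = 0 := by
    intro a ha
    rcases ha with h | h
    · simp [hFdef, h]
    · simp [hFdef, Nat.div_eq_of_lt h, harm]
  have hext : ∀ M, N ≤ M → ∑ a ∈ range (M + 1), F a = ∑ a ∈ Icc 1 N, F a := by
    intro M hM
    symm
    refine Finset.sum_subset (fun a ha => by simp at *; omega) fun a ha hna => hFz a ?_
    simp at *; omega
  have hpair : ∀ M, ∑ a ∈ range (2 * M), F a = ∑ i ∈ range M, (-1 : ℝ) ^ i * f i := by
    intro M
    induction M with
    | zero => simp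
    | succ M ih =>
      rw [show 2 * (M + 1) = 2 * M + 1 + 1 by ring, Finset.sum_range_succ, Finset.sum_range_succ,
        ih, Finset.sum_range_succ]
      have e0 : F (2 * M) = 0 := by
        simp only [hFdef, chiDiv_apply]
        rw [ZMod.χ₄_nat_eq_if_mod_four]
        simp
      have e1 : F (2 * M + 1) = (-1 : ℝ) ^ M * f M := by
        simp only [hFdef, chiDiv_apply, hfdef]
        rw [ZMod.χ₄_eq_neg_one_pow (by omega), show (2 * M + 1) / 2 = M by omega]
        push_cast
        ring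
      rw [e0, e1]; ring
  have h2 := alt_sum_ge N f hf h0
  rw [← hpair, show 2 * (N + 2) = (2 * N + 3) + 1 by ring, hext _ (by omega)] at h2
  have h3 : f 1 ≤ harm N / 3 := by
    simp only [hfdef]
    push_cast
    norm_num
    gcongr
    exact harm_mono (Nat.div_le_self _ _)
  have h4 : f 0 = harm N := by simp [hfdef]
  linarith

lemma sum_gDiv_eq (N : ℕ) :
    ∑ m ∈ Icc 1 N, gDiv m = ∑ a ∈ Icc 1 N, chiDiv a * harm (N / a) := by
  have : ∀ m ∈ Icc 1 N, gDiv m =
      ∑ a ∈ Icc 1 N, if a ∣ m then chiDiv a * invId (m / a) else 0 := by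
    intro m hm
    rw [gDiv, ArithmeticFunction.mul_apply,
      Nat.sum_divisorsAntidiagonal (fun a b => chiDiv a * invId b), ← Finset.sum_filter]
    refine Finset.sum_congr ?_ (fun _ _ => rfl)
    simp only [mem_Icc] at hm
    ext a
    simp only [Nat.mem_divisors, mem_filter, mem_Icc]
    constructor
    · rintro ⟨hd, hne⟩
      have := Nat.le_of_dvd (by omega) hd
      have := Nat.pos_of_dvd_of_pos hd (by omega)
      exact ⟨⟨by omega, by omega⟩, hd⟩
    · rintro ⟨_, hd⟩; exact ⟨hd, by omega⟩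
  rw [Finset.sum_congr rfl this, Finset.sum_comm]
  refine Finset.sum_congr rfl fun a ha => ?_
  simp only [mem_Icc] at ha
  rw [← Finset.sum_filter, harm, Finset.mul_sum]
  refine Finset.sum_nbij' (fun m => m / a) (fun b => a * b) ?_ ?_ ?_ ?_ ?_
  · intro m hm
    simp only [mem_filter, mem_Icc] at hm ⊢
    obtain ⟨⟨h1, h2⟩, k, rfl⟩ := hm
    rw [Nat.mul_div_cancel_left _ (by omega)]
    constructor
    · rcases Nat.eq_zero_or_pos k with h | h
      · subst h; simp at h1
      · omega
    · rw [Nat.le_div_iff_mul_le (by omega)]; linarith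
  · intro b hb
    simp only [mem_filter, mem_Icc] at hb ⊢
    refine ⟨⟨Nat.one_le_iff_ne_zero.mpr (Nat.mul_ne_zero (by omega) (by omega)), ?_⟩,
      dvd_mul_right a b⟩
    have := (Nat.le_div_iff_mul_le (by omega)).mp hb.2
    linarith
  · intro m hm
    simp only [mem_filter] at hm
    exact Nat.mul_div_cancel' hm.2
  · intro b _
    exact Nat.mul_div_cancel_left _ (by omega)
  · intro m _; simp [invId_apply]

/-- The Euler factor. -/
lemma local_factor {p : ℕ} (hp : p.Prime) (E : ℕ) :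
    ∑ e ∈ range (E + 1), gDiv (p ^ e) ≤
      Real.exp ((if p % 4 = 1 then 2 / (p : ℝ) else 0) + 4 / (p : ℝ) ^ 2 +
        if p = 2 then 1 else 0) := by
  have hp2 : (2 : ℝ) ≤ p := by exact_mod_cast hp.two_le
  set x : ℝ := 1 / (p : ℝ) with hx
  have hx0 : 0 ≤ x := by positivity
  have hx1 : x ≤ 1 / 2 := by
    rw [hx]; gcongr
  have hgeom : ∀ M, ∑ e ∈ range M, x ^ e ≤ 1 / (1 - x) := by
    intro M
    rw [geom_sum_eq (by linarith), le_div_iff₀ (by linarith),
      div_mul_eq_mul_div, div_le_iff_of_neg (by linarith)]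
    nlinarith [pow_nonneg hx0 M]
  rcases hp.eq_two_or_odd with h2 | hodd
  · subst h2
    have hs : ∀ e, gDiv (2 ^ e) = x ^ e := by
      intro e
      rw [gDiv_prime_pow hp, ZMod.χ₄_nat_eq_if_mod_four, Finset.sum_eq_single 0]
      · simp [hx]
      · intro b _ hb; simp [zero_pow hb]
      · simp
    simp only [hs]
    refine (hgeom _).trans ?_
    have hx2 : x = 1 / 2 := by simp [hx]
    rw [hx2]
    norm_num
    linarith [Real.add_one_le_exp ((2 : ℝ))]
  · rcases (show p % 4 = 1 ∨ p % 4 = 3 by omega) with h4 | h4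
    · have hs : ∀ e : ℕ, gDiv (p ^ e) = ((e : ℝ) + 1) * x ^ e := by
        intro e
        rw [gDiv_prime_pow hp, ZMod.χ₄_nat_one_mod_four h4]
        simp [hx, div_eq_mul_inv, inv_pow]
      simp only [hs, h4, if_true, if_neg (show p ≠ 2 by omega), add_zero]
      have h5 : ∑ e ∈ range (E + 1), ((e : ℝ) + 1) * x ^ e ≤ (1 / (1 - x)) ^ 2 := by
        have key : ∀ M : ℕ, (∑ e ∈ range M, ((e : ℝ) + 1) * x ^ e) * (1 - x) =
            ∑ e ∈ range M, x ^ e - M * x ^ M := by
          intro M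
          induction M with
          | zero => simp
          | succ M ih =>
            rw [Finset.sum_range_succ, Finset.sum_range_succ, add_mul, ih]
            push_cast
            ring
        have k := key (E + 1)
        rw [sq, mul_one_div, le_div_iff₀ (by linarith)]
        refine le_trans (le_of_eq k) ?_
        have h6 : 0 ≤ ((E + 1 : ℕ) : ℝ) * x ^ (E + 1) := by positivity
        linarith [hgeom (E + 1)]
      refine h5.trans ?_
      have h6 : 1 / (1 - x) ≤ Real.exp (x + 2 * x ^ 2) := by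
        refine le_trans ?_ (Real.add_one_le_exp _)
        rw [div_le_iff₀ (by linarith)]
        nlinarith [pow_nonneg hx0 2]
      calc (1 / (1 - x)) ^ 2 ≤ Real.exp (x + 2 * x ^ 2) ^ 2 := by
            gcongr; exact div_nonneg zero_le_one (by linarith)
        _ = _ := by rw [← Real.exp_nat_mul]; congr 1; rw [hx]; push_cast; ring
    · have hs : ∀ e, gDiv (p ^ e) = if Even e then x ^ e else 0 := by
        intro e
        rw [gDiv_prime_pow hp, ZMod.χ₄_nat_three_mod_four h4]
        push_cast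
        rw [neg_one_geom_sum]
        rcases Nat.even_or_odd e with he | he
        · simp [he, Nat.even_add_one, hx, div_eq_mul_inv, inv_pow]
        · simp [Nat.not_even_iff_odd.mpr he, Nat.even_add_one]
      simp only [hs, if_neg (show ¬p % 4 = 1 by omega), if_neg (show p ≠ 2 by omega), zero_add,
        add_zero]
      have h5 : ∀ M, ∑ e ∈ range M, (if Even e then x ^ e else 0) ≤ 1 + 2 * x ^ 2 := by
        intro M
        have h7 : ∑ e ∈ range M, (if Even e then x ^ e else 0) ≤
            ∑ e ∈ range (2 + M), (if e = 1 then 0 else x ^ e) := by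
          refine (Finset.sum_le_sum fun e _ => ?_).trans
            (Finset.sum_le_sum_of_subset_of_nonneg
              (Finset.range_subset_range.mpr (by omega)) fun e _ _ => ?_)
          · by_cases h : e = 1
            · subst h; norm_num
            · simp only [h, if_false]; split_ifs <;> simp [pow_nonneg hx0]
          · split_ifs <;> simp [pow_nonneg hx0]
        refine h7.trans ?_
        rw [Finset.sum_range_add]
        have h8 : ∑ i ∈ range M, (if 2 + i = 1 then 0 else x ^ (2 + i)) =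
            x ^ 2 * ∑ i ∈ range M, x ^ i := by
          rw [Finset.mul_sum]
          exact Finset.sum_congr rfl fun i _ => by rw [if_neg (by omega), pow_add]
        rw [h8]
        simp [Finset.sum_range_succ]
        have : ∑ i ∈ range M, x ^ i ≤ 2 := (hgeom M).trans (by
          rw [div_le_iff₀ (by linarith)]; linarith)
        nlinarith [pow_nonneg hx0 2]
      refine (h5 _).trans (le_trans ?_ (Real.add_one_le_exp _))
      have : x ^ 2 = 1 / (p : ℝ) ^ 2 := by simp [hx]
      rw [this]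
      have : 0 ≤ 1 / (p : ℝ) ^ 2 := by positivity
      linarith [show (4 : ℝ) / (p : ℝ) ^ 2 = 4 * (1 / (p : ℝ) ^ 2) by ring]

lemma sum_inv_sq_le (s : Finset ℕ) (hs : ∀ p ∈ s, 2 ≤ p) : ∑ p ∈ s, (1 : ℝ) / (p : ℝ) ^ 2 ≤ 1 := by
  have h1 : ∀ M : ℕ, ∑ p ∈ Icc 2 M, (1 : ℝ) / (p : ℝ) ^ 2 ≤ 1 - 1 / (M : ℝ) := by
    intro M
    induction M with
    | zero => simp
    | succ M ih =>
      rcases Nat.eq_zero_or_pos M with h | h
      · subst h; simp
      · rw [Finset.sum_Icc_succ_top (by omega)]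
        have hM : (0 : ℝ) < M := by exact_mod_cast h
        have : (1 : ℝ) / ((M + 1 : ℕ) : ℝ) ^ 2 ≤ 1 / (M : ℝ) - 1 / ((M + 1 : ℕ) : ℝ) := by
          push_cast
          rw [div_sub_div _ _ hM.ne' (by linarith), div_le_div_iff₀ (by positivity) (by positivity)]
          nlinarith
        linarith
  rcases s.eq_empty_or_nonempty with h | h
  · subst h; simp
  · refine le_trans (Finset.sum_le_sum_of_subset_of_nonneg (t := Icc 2 (s.sup id))
      (fun p hp => mem_Icc.mpr ⟨hs p hp, Finset.le_sup (f := id) hp⟩)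
      (fun i _ _ => by positivity)) ((h1 _).trans ?_)
    have : (0 : ℝ) ≤ 1 / ((s.sup id : ℕ) : ℝ) := by positivity
    linarith

/-- `∑_{p ≤ N, p ≡ 1 (4)} 1/p ≥ (1/2) log log N - 3`. -/
theorem split_sum_lower (N : ℕ) (hN : 3 ≤ N) :
    1 / 2 * Real.log (Real.log N) - 4 ≤ ∑ p ∈ splitPrimes N, (1 : ℝ) / p := by
  set L := Nat.lcmUpto N with hL
  have hLne : L ≠ 0 := Nat.lcmUpto_ne_zero N
  have h1 : ∑ m ∈ Icc 1 N, gDiv m ≤ ∑ m ∈ L.divisors, gDiv m :=
    Finset.sum_le_sum_of_subset_of_nonneg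
      (fun m hm => Nat.mem_divisors.mpr ⟨Finset.dvd_lcm (f := id) hm, hLne⟩)
      fun i _ _ => gDiv_nonneg i
  have h2 : ∑ m ∈ L.divisors, gDiv m ≤
      Real.exp (2 * ∑ p ∈ splitPrimes N, (1 : ℝ) / p + 5) := by
    rw [← ArithmeticFunction.coe_zeta_mul_apply,
      ArithmeticFunction.IsMultiplicative.multiplicative_factorization _
        (ArithmeticFunction.isMultiplicative_zeta.natCast.mul gDiv_mult) hLne,
      Finsupp.prod, Nat.support_factorization, hL, Nat.primeFactors_lcmUpto]
    have hle : ∀ p ∈ Nat.primesLE N,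
        ((ζ : ArithmeticFunction ℝ) * gDiv) (p ^ (Nat.lcmUpto N).factorization p) ≤
        Real.exp ((if p % 4 = 1 then 2 / (p : ℝ) else 0) + 4 / (p : ℝ) ^ 2 +
          if p = 2 then 1 else 0) := by
      intro p hp
      have hpp : p.Prime := (Nat.mem_primesLE.mp hp).2
      rw [ArithmeticFunction.coe_zeta_mul_apply, Nat.sum_divisors_prime_pow hpp]
      exact local_factor hpp _
    refine (Finset.prod_le_prod (fun p _ => ?_) hle).trans ?_
    · rw [ArithmeticFunction.coe_zeta_mul_apply]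
      exact Finset.sum_nonneg fun i _ => gDiv_nonneg i
    · rw [← Real.exp_sum, Real.exp_le_exp, Finset.sum_add_distrib, Finset.sum_add_distrib]
      have e1 : ∑ p ∈ Nat.primesLE N, (if p % 4 = 1 then 2 / (p : ℝ) else 0) =
          2 * ∑ p ∈ splitPrimes N, (1 : ℝ) / p := by
        rw [← Finset.sum_filter, Finset.mul_sum]
        refine Finset.sum_congr ?_ fun p _ => by ring
        ext p
        simp [mem_splitPrimes, Nat.mem_primesLE]; tauto
      have e2 : ∑ p ∈ Nat.primesLE N, (4 : ℝ) / (p : ℝ) ^ 2 ≤ 4 := by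
        rw [show (fun p : ℕ => (4 : ℝ) / (p : ℝ) ^ 2) = fun p : ℕ => 4 * ((1 : ℝ) / (p : ℝ) ^ 2)
          from funext fun p => by ring, ← Finset.mul_sum]
        linarith [sum_inv_sq_le (Nat.primesLE N) fun p hp => (Nat.mem_primesLE.mp hp).2.two_le]
      have e3 : ∑ p ∈ Nat.primesLE N, (if p = 2 then (1 : ℝ) else 0) ≤ 1 := by
        rw [Finset.sum_ite_eq']; split_ifs <;> norm_num
      linarith
  have h3 : 2 / 3 * Real.log N ≤ ∑ m ∈ Icc 1 N, gDiv m := by
    rw [sum_gDiv_eq]
    refine le_trans ?_ (sum_chi_harm_ge N)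
    gcongr
    rw [harm_eq]
    refine le_trans (Real.log_le_log (by positivity) ?_) (log_add_one_le_harmonic N)
    push_cast; linarith
  have hlog : (1 : ℝ) ≤ Real.log N := by
    rw [Real.le_log_iff_exp_le (by positivity)]
    have : Real.exp 1 < 3 := by linarith [Real.exp_one_lt_d9]
    have : (3 : ℝ) ≤ (N : ℝ) := by exact_mod_cast hN
    linarith
  have h4 := (h3.trans (h1.trans h2))
  have h5 : Real.log (2 / 3 * Real.log N) ≤ 2 * ∑ p ∈ splitPrimes N, (1 : ℝ) / p + 5 :=
    (Real.log_le_iff_le_exp (by positivity)).mpr h4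
  rw [Real.log_mul (by norm_num) (by linarith)] at h5
  have h6 : -1 ≤ Real.log (2 / 3 : ℝ) := by
    rw [Real.le_log_iff_exp_le (by norm_num), Real.exp_neg,
      inv_le_comm₀ (Real.exp_pos 1) (by norm_num)]
    have := Real.exp_one_gt_d9
    norm_num
    linarith
  linarith

/-- Dyadic blocks of primes. -/
lemma block_le (i : ℕ) :
    ∑ p ∈ (Finset.Ioc (2 ^ i) (2 ^ (i + 1))).filter Nat.Prime, (1 : ℝ) / p ≤
      8 / ((i : ℝ) + 1) := by
  rcases Nat.eq_zero_or_pos i with hi | hi
  · subst hi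
    have : (Finset.Ioc (2 ^ 0) (2 ^ (0 + 1))).filter Nat.Prime = {2} := by decide
    rw [this]; norm_num
  · set s := (Finset.Ioc (2 ^ i) (2 ^ (i + 1))).filter Nat.Prime with hs
    have hmem : ∀ p ∈ s, 2 ^ i < p ∧ p.Prime := fun p hp => by
      simp [hs] at hp; exact ⟨hp.1.1, hp.2⟩
    have hA : (2 ^ i) ^ s.card ≤ 4 ^ (2 ^ (i + 1)) := by
      have hsub : s ⊆ (Finset.range (2 ^ (i + 1) + 1)).filter Nat.Prime := by
        intro p hp; simp [hs] at hp ⊢; exact ⟨by omega, hp.2⟩
      calc (2 ^ i) ^ s.card ≤ ∏ p ∈ s, p := Finset.pow_card_le_prod s id _ fun p hp => (hmem p hp).1.le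
        _ ≤ ∏ p ∈ (Finset.range (2 ^ (i + 1) + 1)).filter Nat.Prime, p :=
            Finset.prod_le_prod_of_subset_of_one_le' hsub fun p hp _ => by
              simp at hp; exact hp.2.one_lt.le
        _ ≤ _ := primorial_le_four_pow _
    have hB : i * s.card ≤ 2 * 2 ^ (i + 1) := by
      rw [← pow_mul, show (4 : ℕ) = 2 ^ 2 by norm_num, ← pow_mul] at hA
      exact (Nat.pow_le_pow_iff_right (by norm_num)).mp hA
    refine (Finset.sum_le_card_nsmul s _ ((1 : ℝ) / 2 ^ i) fun p hp => ?_).trans ?_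
    · gcongr
      exact_mod_cast (hmem p hp).1.le
    · rw [nsmul_eq_mul, mul_one_div, div_le_div_iff₀ (by positivity) (by positivity)]
      have hi' : (1 : ℝ) ≤ i := by exact_mod_cast hi
      have hB' : (i : ℝ) * s.card ≤ 2 * 2 ^ (i + 1) := by exact_mod_cast hB
      have hc : (0 : ℝ) ≤ s.card := by positivity
      have hC : (s.card : ℝ) * i ≤ 4 * 2 ^ i := by
        rw [pow_succ] at hB'; linarith
      have hD : (s.card : ℝ) ≤ 4 * 2 ^ i := by nlinarith
      linarith

/-- `∑_{p ≤ N} 1/p ≤ 8 (log log N + 3)`. -/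
theorem prime_sum_upper (N : ℕ) (hN : 3 ≤ N) :
    ∑ p ∈ (Finset.range (N + 1)).filter Nat.Prime, (1 : ℝ) / p ≤
      8 * (Real.log (Real.log N) + 3) := by
  have hblocks : ∀ J : ℕ, ∑ p ∈ (Finset.Ioc 1 (2 ^ J)).filter Nat.Prime, (1 : ℝ) / p ≤
      ∑ i ∈ Finset.range J, 8 / ((i : ℝ) + 1) := by
    intro J
    induction J with
    | zero => simp
    | succ J ih =>
      rw [Finset.sum_range_succ,
        ← Finset.Ioc_union_Ioc_eq_Ioc (Nat.one_le_two_pow (n := J))
          (Nat.pow_le_pow_right (by norm_num) (Nat.le_succ J)),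
        Finset.filter_union, Finset.sum_union]
      · linarith [block_le J]
      · exact Finset.disjoint_filter_filter (Finset.Ioc_disjoint_Ioc_of_le le_rfl)
  set J := Nat.log 2 N + 1 with hJ
  have h1 : (Finset.range (N + 1)).filter Nat.Prime ⊆
      (Finset.Ioc 1 (2 ^ J)).filter Nat.Prime := by
    intro p hp
    simp at hp ⊢
    have := Nat.lt_pow_succ_log_self (b := 2) (by norm_num) N
    exact ⟨⟨hp.2.one_lt, by rw [hJ]; omega⟩, hp.2⟩
  refine (Finset.sum_le_sum_of_subset_of_nonneg h1 fun _ _ _ => by positivity).trans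
    ((hblocks J).trans ?_)
  have h2 : ∑ i ∈ Finset.range J, 8 / ((i : ℝ) + 1) = 8 * ((harmonic J : ℚ) : ℝ) := by
    rw [harmonic, Rat.cast_sum, Finset.mul_sum]
    refine Finset.sum_congr rfl fun i _ => ?_
    push_cast; rw [div_eq_mul_inv]
  rw [h2]
  have hlog2 : (0.69 : ℝ) ≤ Real.log 2 := by linarith [Real.log_two_gt_d9]
  have hlN : (1 : ℝ) ≤ Real.log N := by
    rw [Real.le_log_iff_exp_le (by positivity)]
    have : Real.exp 1 < 3 := by linarith [Real.exp_one_lt_d9]
    have : (3 : ℝ) ≤ (N : ℝ) := by exact_mod_cast hN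
    linarith
  have hJ1 : ((Nat.log 2 N : ℕ) : ℝ) * Real.log 2 ≤ Real.log N := by
    rw [← Real.log_pow]
    refine Real.log_le_log (by positivity) ?_
    exact_mod_cast Nat.pow_log_le_self 2 (by omega)
  have hJ2 : ((J : ℕ) : ℝ) ≤ 3 * Real.log N := by
    rw [hJ]; push_cast; nlinarith
  have h3 : Real.log (J : ℝ) ≤ 2 + Real.log (Real.log N) := by
    refine (Real.log_le_log (by rw [hJ]; positivity) hJ2).trans ?_
    rw [Real.log_mul (by norm_num) (by linarith)]
    have := Real.log_le_sub_one_of_pos (show (0 : ℝ) < 3 by norm_num)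
    linarith
  have h4 := harmonic_le_one_add_log J
  linarith

end Vale.Agent.P015
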