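import Mathlib
import Vale.Agent.P015.Basic
import Vale.Agent.P015.SplitSum

/-!
# A uniform moat across straight strips of bounded width, in every direction and position
-/

namespace Vale.Agent.P015

open Finset ComplexConjugate

/-- Some window `(w, w ^ 2]` contains `K` primes congruent to `1` modulo `4`. -/
lemma exists_window (K W0 : ℕ) : ∃ w, W0 ≤ w ∧
    ∃ S : Finset ℕ, S.card = K ∧ ∀ p ∈ S, w < p ∧ p ≤ w ^ 2 ∧ p.Prime ∧ p % 4 = 1 := by
  by_contra hcon
  simp only [not_exists, not_and] at hcon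
  set w0 := W0 + 3 with hw0
  set N : ℕ → ℕ := fun i => w0 ^ (2 ^ i) with hN
  have hN2 : ∀ i, N (i + 1) = N i ^ 2 := by
    intro i; simp [hN, pow_succ, pow_mul]
  have hNge : ∀ i, w0 ≤ N i := fun i => Nat.le_self_pow (by positivity) _
  have hw02 : ∀ i, (2 : ℝ) ^ i ≤ N i := by
    intro i
    have h2 : 2 ^ i ≤ w0 ^ (2 ^ i) := le_trans
      (Nat.pow_le_pow_right (by norm_num) (Nat.lt_two_pow_self).le)
      (Nat.pow_le_pow_left (by omega) _)
    exact_mod_cast h2
  have hstep : ∀ i, ∑ p ∈ splitPrimes (N (i + 1)), (1 : ℝ) / p ≤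
      ∑ p ∈ splitPrimes (N i), (1 : ℝ) / p + K / (2 : ℝ) ^ i := by
    intro i
    have hsub : splitPrimes (N i) ⊆ splitPrimes (N (i + 1)) := by
      intro p hp
      simp only [mem_splitPrimes] at hp ⊢
      refine ⟨hp.1.trans ?_, hp.2⟩
      rw [hN2]; exact Nat.le_self_pow (by norm_num) _
    rw [← Finset.sum_sdiff hsub, add_comm]
    gcongr
    set E := splitPrimes (N (i + 1)) \ splitPrimes (N i) with hE
    have hmem : ∀ p ∈ E, N i < p ∧ p ≤ N i ^ 2 ∧ p.Prime ∧ p % 4 = 1 := by
      intro p hp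
      simp only [hE, Finset.mem_sdiff, mem_splitPrimes, hN2] at hp
      obtain ⟨⟨h1, h2, h3⟩, h4⟩ := hp
      exact ⟨by by_contra hc; exact h4 ⟨by omega, h2, h3⟩, h1, h2, h3⟩
    have hcard : E.card ≤ K := by
      by_contra hc
      obtain ⟨S, hS, hSc⟩ := Finset.exists_subset_card_eq (s := E) (n := K) (by omega)
      exact hcon (N i) (by have := hNge i; omega) S hSc fun p hp => hmem p (hS hp)
    refine (Finset.sum_le_card_nsmul E _ ((1 : ℝ) / 2 ^ i) fun p hp => ?_).trans ?_
    · gcongr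
      exact (hw02 i).trans (by exact_mod_cast (hmem p hp).1.le)
    · rw [nsmul_eq_mul, mul_one_div]
      gcongr
  have hbound : ∀ i, ∑ p ∈ splitPrimes (N i), (1 : ℝ) / p ≤
      ∑ p ∈ splitPrimes (N 0), (1 : ℝ) / p + K * (2 - 2 / (2 : ℝ) ^ i) := by
    intro i
    induction i with
    | zero => simp
    | succ i ih =>
      refine (hstep i).trans ?_
      have e : (K : ℝ) / 2 ^ i = K * (2 / 2 ^ i - 2 / 2 ^ (i + 1)) := by
        rw [pow_succ]; field_simp; ring
      rw [e]; linarith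
  set C := ∑ p ∈ splitPrimes (N 0), (1 : ℝ) / p + K * 2 with hC
  obtain ⟨i, hi⟩ := pow_unbounded_of_one_lt (Real.exp (2 * (C + 5))) (one_lt_two : (1 : ℝ) < 2)
  have h1 := split_sum_lower (N i) (by have := hNge i; omega)
  have hN' : Real.log (N i) = 2 ^ i * Real.log w0 := by
    simp [hN]
  have h2 : 2 * (C + 5) < Real.log (Real.log (N i)) := by
    rw [hN']
    have hl : (1 : ℝ) ≤ Real.log w0 := by
      rw [Real.le_log_iff_exp_le (by positivity)]
      have : Real.exp 1 < 3 := by linarith [Real.exp_one_lt_d9]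
      have : (3 : ℝ) ≤ (w0 : ℝ) := by exact_mod_cast (show 3 ≤ w0 by omega)
      linarith
    rw [Real.lt_log_iff_exp_lt (by positivity)]
    have : (0 : ℝ) < 2 ^ i := by positivity
    nlinarith
  have h3 := hbound i
  have : (0 : ℝ) ≤ (K : ℝ) * (2 / (2 : ℝ) ^ i) := by positivity
  linarith [mul_sub (K : ℝ) 2 (2 / (2 : ℝ) ^ i)]

/-- Dirichlet approximation of a direction by a Gaussian integer. -/
lemma exists_direction {u : ℂ} (hu : ‖u‖ = 1) {Q : ℕ} (hQ : 0 < Q) :
    ∃ v : GaussianInt, v ≠ 0 ∧ 0 ≤ (GaussianInt.toComplex v * conj u).re ∧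
      |(GaussianInt.toComplex v * conj u).im| ≤ 1 / ((Q : ℝ) + 1) ∧
      |(GaussianInt.toComplex v * conj u).re| ≤ 2 * ((Q : ℝ) + 1) ∧
      v.norm ≤ 2 * ((Q : ℤ) + 1) ^ 2 := by
  suffices h : ∃ v : GaussianInt, v ≠ 0 ∧
      |(GaussianInt.toComplex v * conj u).im| ≤ 1 / ((Q : ℝ) + 1) ∧
      |v.re| ≤ (Q : ℤ) + 1 ∧ |v.im| ≤ (Q : ℤ) + 1 by
    obtain ⟨v, hv, him, h1, h2⟩ := h
    have hn : v.norm ≤ 2 * ((Q : ℤ) + 1) ^ 2 := by
      rw [norm_eq_sq]
      nlinarith [sq_le_sq' (abs_le.mp h1).1 (abs_le.mp h1).2,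
        sq_le_sq' (abs_le.mp h2).1 (abs_le.mp h2).2]
    have hre : |(GaussianInt.toComplex v * conj u).re| ≤ 2 * ((Q : ℝ) + 1) := by
      refine (Complex.abs_re_le_norm _).trans ?_
      rw [norm_mul, Complex.norm_conj, hu, mul_one]
      refine (Complex.norm_le_abs_re_add_abs_im _).trans ?_
      rw [toComplex_re_int, toComplex_im_int]
      have e1 : |(v.re : ℝ)| ≤ (Q : ℝ) + 1 := by exact_mod_cast h1
      have e2 : |(v.im : ℝ)| ≤ (Q : ℝ) + 1 := by exact_mod_cast h2
      linarith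
    by_cases hs : 0 ≤ (GaussianInt.toComplex v * conj u).re
    · exact ⟨v, hv, hs, him, hre, hn⟩
    · refine ⟨-v, neg_ne_zero.mpr hv, ?_, ?_, ?_, ?_⟩
      · rw [map_neg, neg_mul, Complex.neg_re]; linarith
      · rw [map_neg, neg_mul, Complex.neg_im, abs_neg]; exact him
      · rw [map_neg, neg_mul, Complex.neg_re, abs_neg]; exact hre
      · rw [Zsqrtd.norm_neg]; exact hn
  have hsq : u.re ^ 2 + u.im ^ 2 = 1 := by
    have := Complex.sq_norm u
    rw [hu, Complex.normSq_apply] at this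
    linarith
  have hu1 : |u.re| ≤ 1 := by
    rw [abs_le]; constructor <;> nlinarith
  have hu2 : |u.im| ≤ 1 := by
    rw [abs_le]; constructor <;> nlinarith
  have key : ∀ a b : ℝ, |b| ≤ |a| → a ≠ 0 → |a| ≤ 1 →
      ∃ j k : ℤ, k ≠ 0 ∧ |k| ≤ (Q : ℤ) + 1 ∧ |j| ≤ (Q : ℤ) + 1 ∧
        |(k : ℝ) * b - j * a| ≤ 1 / ((Q : ℝ) + 1) := by
    intro a b hba ha ha1
    obtain ⟨j, k, hk0, hkQ, hjk⟩ := Real.exists_int_int_abs_mul_sub_le (b / a) hQ
    refine ⟨j, k, hk0.ne', by rw [abs_of_pos hk0]; omega, ?_, ?_⟩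
    · have hξ : |b / a| ≤ 1 := by
        rw [abs_div, div_le_one (abs_pos.mpr ha)]; exact hba
      have h1 : |(k : ℝ) * (b / a)| ≤ (Q : ℝ) := by
        rw [abs_mul]
        have : |(k : ℝ)| ≤ Q := by
          rw [abs_of_pos (by exact_mod_cast hk0)]; exact_mod_cast hkQ
        nlinarith [abs_nonneg (k : ℝ), abs_nonneg (b / a)]
      have h2 : (1 : ℝ) / ((Q : ℝ) + 1) ≤ 1 := by
        rw [div_le_one (by positivity)]; linarith [Nat.cast_nonneg (α := ℝ) Q]
      have h3 : |(j : ℝ)| ≤ (Q : ℝ) + 1 := by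
        have := abs_sub_abs_le_abs_sub (j : ℝ) ((k : ℝ) * (b / a))
        rw [abs_sub_comm] at hjk
        linarith
      exact_mod_cast h3
    · have : (k : ℝ) * b - j * a = a * (k * (b / a) - j) := by field_simp
      rw [this, abs_mul]
      calc |a| * |(k : ℝ) * (b / a) - j| ≤ 1 * (1 / ((Q : ℝ) + 1)) := by gcongr
        _ = _ := one_mul _
  rcases le_total |u.im| |u.re| with h | h
  · have ha : u.re ≠ 0 := fun h0 => by
      rw [h0, abs_zero] at h
      have : u.im = 0 := abs_eq_zero.mp (le_antisymm h (abs_nonneg _))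
      simp [h0, this] at hsq
    obtain ⟨j, k, hk, hk', hj, hjk⟩ := key u.re u.im h ha hu1
    refine ⟨⟨k, j⟩, fun h0 => hk (congr_arg Zsqrtd.re h0), ?_, hk', hj⟩
    rw [abs_sub_comm] at hjk
    simpa [Complex.mul_im, toComplex_re_int, toComplex_im_int, sub_eq_add_neg, add_comm, mul_comm]
      using hjk
  · have ha : u.im ≠ 0 := fun h0 => by
      rw [h0, abs_zero] at h
      have : u.re = 0 := abs_eq_zero.mp (le_antisymm h (abs_nonneg _))
      simp [h0, this] at hsq
    obtain ⟨j, k, hk, hk', hj, hjk⟩ := key u.im u.re h ha hu2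
    refine ⟨⟨j, k⟩, fun h0 => hk (congr_arg Zsqrtd.im h0), ?_, hj, hk'⟩
    simpa [Complex.mul_im, toComplex_re_int, toComplex_im_int, sub_eq_add_neg, add_comm, mul_comm]
      using hjk

/-- Solving for the position along a direction at which a given offset becomes composite. -/
lemma exists_shift {p : ℕ} (hp : p.Prime) (h4 : p % 4 = 1) (a v : GaussianInt)
    (hv : ¬ (p : ℤ) ∣ v.norm) :
    ∃ t0 : ℕ, ∀ t : ℕ, t ≡ t0 [MOD p] → (p : ℤ) ∣ (a + (t : GaussianInt) * v).norm := by
  haveI : Fact p.Prime := ⟨hp⟩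
  obtain ⟨r, hr⟩ := exists_sqrt_neg_one hp h4
  have hne : (v.re : ZMod p) + r * v.im ≠ 0 := by
    intro h0
    apply hv
    rw [← ZMod.intCast_zmod_eq_zero_iff_dvd, norm_eq_sq]
    push_cast
    linear_combination ((v.re : ZMod p) - r * v.im) * h0 + (v.im : ZMod p) * v.im * hr
  set τ : ZMod p := -((a.re : ZMod p) + r * a.im) / ((v.re : ZMod p) + r * v.im) with hτ
  refine ⟨τ.val, fun t ht => ?_⟩
  have htc : (t : ZMod p) = τ := by
    rw [(ZMod.natCast_eq_natCast_iff t τ.val p).mpr ht, ZMod.natCast_zmod_val]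
  have e : τ * ((v.re : ZMod p) + r * v.im) = -((a.re : ZMod p) + r * a.im) :=
    div_mul_cancel₀ _ hne
  rw [← ZMod.intCast_zmod_eq_zero_iff_dvd, norm_eq_sq]
  simp only [Zsqrtd.re_add, Zsqrtd.im_add, Zsqrtd.re_mul, Zsqrtd.im_mul, Zsqrtd.re_natCast,
    Zsqrtd.im_natCast]
  push_cast
  rw [htc]
  linear_combination ((a.re : ZMod p) + τ * v.re - r * (a.im + τ * v.im)) * e +
    ((a.im : ZMod p) + τ * v.im) * (a.im + τ * v.im) * hr

set_option maxHeartbeats 2000000 in
/-- The moat: in a strip there is a cross cut, within bounded distance, free of Gaussian primes. -/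
lemma exists_cross_cut (D W : ℝ) (hD : 0 ≤ D) (hW : 0 ≤ W) :
    ∃ T : ℝ, ∀ (u c : ℂ) (sb : ℝ), ‖u‖ = 1 →
      ∃ s : ℝ, sb - 1 ≤ s ∧ s ≤ sb + T ∧ ∀ q : GaussianInt,
        |((GaussianInt.toComplex q - c) * conj u).re - s| ≤ D →
        |((GaussianInt.toComplex q - c) * conj u).im| ≤ W → ¬ Prime q := by
  classical
  obtain ⟨R, hR⟩ := exists_nat_ge (W + D + 4)
  have hR4 : 4 ≤ R := by
    have : (4 : ℝ) ≤ R := by linarith
    exact_mod_cast this
  set O : Finset (ℤ × ℤ) := Finset.Icc (-(R : ℤ)) R ×ˢ Finset.Icc (-(R : ℤ)) R with hO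
  set n := O.card with hn
  have hn2 : 2 ≤ n := by
    have : ({((0 : ℤ), (0 : ℤ)), ((1 : ℤ), (0 : ℤ))} : Finset _) ⊆ O := by
      intro x hx; simp at hx; rcases hx with rfl | rfl <;> simp [hO] <;> omega
    refine le_trans ?_ (Finset.card_le_card this)
    rw [Finset.card_pair (by simp)]
  obtain ⟨w, hw, S, hScard, hS⟩ := exists_window (5 * n + 10) (4 * R + 50)
  set Q : ℕ := 3 * w ^ (2 * n) with hQdef
  have hQ : 0 < Q := by
    have : 0 < w ^ (2 * n) := pow_pos (by omega) _
    omega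
  refine ⟨1 + (Q : ℝ) * (2 * ((Q : ℝ) + 1)), fun u c sb hu => ?_⟩
  obtain ⟨v, hv, hvre, hvim, hvreB, hvn⟩ := exists_direction hu hQ
  -- primes of the window which do not divide the norm of the direction
  set B := S.filter fun p : ℕ => (p : ℤ) ∣ v.norm with hB
  have hBcard : B.card < 4 * n + 7 := by
    by_contra hc
    have hdvd : (∏ p ∈ B, p) ∣ v.norm.natAbs := by
      refine Finset.prod_primes_dvd _ (fun p hp => ?_) fun p hp => ?_
      · exact ((hS p (Finset.mem_filter.mp hp).1).2.2.1).prime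
      · exact Int.natCast_dvd.mp (Finset.mem_filter.mp hp).2
    have h1 : w ^ B.card ≤ ∏ p ∈ B, p :=
      Finset.pow_card_le_prod B id w fun p hp => (hS p (Finset.mem_filter.mp hp).1).1.le
    have hvpos : 0 < v.norm := GaussianInt.norm_pos.mpr hv
    have h2 : ∏ p ∈ B, p ≤ v.norm.natAbs := Nat.le_of_dvd (by omega) hdvd
    have h3 : v.norm.natAbs ≤ 2 * (Q + 1) ^ 2 := by
      zify; rw [abs_of_pos hvpos]; exact hvn
    have h4 : 2 * (Q + 1) ^ 2 ≤ 50 * w ^ (4 * n) := by
      have h5 : Q + 1 ≤ 4 * w ^ (2 * n) := by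
        have : 0 < w ^ (2 * n) := pow_pos (by omega) _
        omega
      calc 2 * (Q + 1) ^ 2 ≤ 2 * (4 * w ^ (2 * n)) ^ 2 := by gcongr
        _ = 32 * w ^ (4 * n) := by ring
        _ ≤ _ := by gcongr; norm_num
    have h6 : w ^ (4 * n + 7) ≤ 50 * w ^ (4 * n) :=
      le_trans (Nat.pow_le_pow_right (by omega) (by omega)) (h1.trans (h2.trans (h3.trans h4)))
    rw [pow_add, mul_comm] at h6
    have h7 := Nat.le_of_mul_le_mul_right h6 (pow_pos (by omega) _)
    have h8 : w ≤ w ^ 7 := Nat.le_self_pow (by norm_num) _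
    nlinarith [Nat.pow_le_pow_left (show 2 ≤ w by omega) 6, pow_succ w 6]
  obtain ⟨G, hGsub, hGcard⟩ := Finset.exists_subset_card_eq (s := S \ B) (n := n)
    (by rw [Finset.card_sdiff_of_subset (show B ⊆ S from Finset.filter_subset _ _), hScard]; omega)
  obtain ⟨e⟩ : Nonempty ((O : Finset (ℤ × ℤ)) ≃ (G : Finset ℕ)) :=
    ⟨Fintype.equivOfCardEq (by simp [hGcard, hn])⟩
  have heS : ∀ o, (e o : ℕ) ∈ S ∧ ¬ ((e o : ℕ) : ℤ) ∣ v.norm := by
    intro o
    have := Finset.mem_sdiff.mp (hGsub (e o).2)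
    exact ⟨this.1, fun hd => this.2 (Finset.mem_filter.mpr ⟨this.1, hd⟩)⟩
  -- base point
  set x : ℂ := c + (sb : ℂ) * u with hx
  set z0 : GaussianInt := ⟨round x.re, round x.im⟩ with hz0
  have hz0x : ‖GaussianInt.toComplex z0 - x‖ ≤ 1 := by
    refine (Complex.norm_le_abs_re_add_abs_im _).trans ?_
    rw [Complex.sub_re, Complex.sub_im, toComplex_re_int, toComplex_im_int, abs_sub_comm,
      abs_sub_comm _ x.im]
    linarith [abs_sub_round x.re, abs_sub_round x.im]
  have hsh : ∀ o : O, ∃ t0 : ℕ, ∀ t : ℕ, t ≡ t0 [MOD (e o : ℕ)] →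
      ((e o : ℕ) : ℤ) ∣ ((z0 + ⟨(o : ℤ × ℤ).1, (o : ℤ × ℤ).2⟩) + (t : GaussianInt) * v).norm :=
    fun o => exists_shift (hS _ (heS o).1).2.2.1 (hS _ (heS o).1).2.2.2 _ v (heS o).2
  choose t0 ht0 using hsh
  have hne : ∀ o ∈ (Finset.univ : Finset O), (e o : ℕ) ≠ 0 := fun o _ =>
    (hS _ (heS o).1).2.2.1.ne_zero
  have hco : Set.Pairwise (↑(Finset.univ : Finset O))
      (Function.onFun Nat.Coprime fun o : O => (e o : ℕ)) := by
    intro i _ j _ hij
    refine (Nat.coprime_primes (hS _ (heS i).1).2.2.1 (hS _ (heS j).1).2.2.1).mpr fun h => hij ?_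
    exact e.injective (Subtype.ext h)
  obtain ⟨t1, ht1⟩ := Nat.chineseRemainderOfFinset t0 (fun o : O => (e o : ℕ)) Finset.univ hne hco
  set P := ∏ o : O, (e o : ℕ) with hP
  have hPlow : w ^ n ≤ P := by
    rw [show n = (Finset.univ : Finset O).card by simp [hn]]
    exact Finset.pow_card_le_prod _ _ _ fun o _ => (hS _ (heS o).1).1.le
  have hPhigh : P ≤ (w ^ 2) ^ n := by
    rw [show n = (Finset.univ : Finset O).card by simp [hn]]
    exact Finset.prod_le_pow_card _ _ _ fun o _ => (hS _ (heS o).1).2.1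
  set t2 := t1 % P with ht2
  have hPpos : 0 < P := lt_of_lt_of_le (pow_pos (by omega) _) hPlow
  have htmod : ∀ k (o : O), t2 + k * P ≡ t0 o [MOD (e o : ℕ)] := by
    intro k o
    have hd : (e o : ℕ) ∣ P := Finset.dvd_prod_of_mem _ (Finset.mem_univ o)
    have h1 : t2 + k * P ≡ t1 [MOD P] := by
      simp [Nat.ModEq, ht2, Nat.add_mul_mod_self_right]
    exact (h1.of_dvd hd).trans (ht1 o (Finset.mem_univ o))
  set Z : ℕ → GaussianInt := fun k => z0 + ((t2 + k * P : ℕ) : GaussianInt) * v with hZ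
  have hZfacts : ∀ k, k ≤ 1 → ∀ q : GaussianInt,
      |((GaussianInt.toComplex q - GaussianInt.toComplex (Z k)) * conj u).re| ≤ D →
      |((GaussianInt.toComplex q - c) * conj u).im| ≤ W →
      Prime q → ‖GaussianInt.toComplex (Z k)‖ ≤ (w : ℝ) + 2 * R := by
    intro k hk q hq1 hq2 hq
    set tk : ℕ := t2 + k * P with htk
    have htQ : tk ≤ Q := by
      have h1 : t2 < P := Nat.mod_lt _ hPpos
      have h2 : k * P ≤ 1 * P := by gcongr
      have h3 : P ≤ w ^ (2 * n) := by rw [pow_mul]; exact hPhigh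
      omega
    have hdec : (GaussianInt.toComplex (Z k) - c) * conj u =
        (sb : ℂ) + (GaussianInt.toComplex z0 - x) * conj u +
          ((tk : ℝ) : ℂ) * (GaussianInt.toComplex v * conj u) := by
      have huu : u * conj u = 1 := by rw [Complex.mul_conj', hu]; simp
      simp only [hZ, map_add, map_mul, map_natCast, hx, ← htk, Complex.ofReal_natCast]
      linear_combination (sb : ℂ) * huu
    have hZim : |((GaussianInt.toComplex (Z k) - c) * conj u).im| ≤ 2 := by
      rw [hdec, Complex.add_im, Complex.add_im, Complex.ofReal_im, zero_add, Complex.im_ofReal_mul]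
      refine (abs_add_le _ _).trans ?_
      have e1 : |((GaussianInt.toComplex z0 - x) * conj u).im| ≤ 1 := by
        refine (Complex.abs_im_le_norm _).trans ?_
        rw [norm_mul, Complex.norm_conj, hu, mul_one]; exact hz0x
      have e2 : |(tk : ℝ) * (GaussianInt.toComplex v * conj u).im| ≤ 1 := by
        rw [abs_mul, abs_of_nonneg (Nat.cast_nonneg tk)]
        calc (tk : ℝ) * |(GaussianInt.toComplex v * conj u).im|
              ≤ ((Q : ℝ) + 1) * (1 / ((Q : ℝ) + 1)) := by
                gcongr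
                have : (tk : ℝ) ≤ Q := by exact_mod_cast htQ
                linarith
          _ = 1 := by rw [mul_one_div, div_self]; positivity
      linarith
    have hdiff : ‖GaussianInt.toComplex q - GaussianInt.toComplex (Z k)‖ ≤ R := by
      have e0 : ‖GaussianInt.toComplex q - GaussianInt.toComplex (Z k)‖ =
          ‖(GaussianInt.toComplex q - GaussianInt.toComplex (Z k)) * conj u‖ := by
        rw [norm_mul _ (conj u), Complex.norm_conj, hu, mul_one]
      rw [e0]
      refine (Complex.norm_le_abs_re_add_abs_im _).trans ?_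
      have e3 : |((GaussianInt.toComplex q - GaussianInt.toComplex (Z k)) * conj u).im| ≤ W + 2 := by
        rw [show (GaussianInt.toComplex q - GaussianInt.toComplex (Z k)) * conj u =
          (GaussianInt.toComplex q - c) * conj u - (GaussianInt.toComplex (Z k) - c) * conj u by ring,
          Complex.sub_im]
        exact (abs_sub _ _).trans (by linarith)
      linarith
    have hoR : |(q - Z k).re| ≤ (R : ℤ) ∧ |(q - Z k).im| ≤ (R : ℤ) := by
      constructor
      · have := (Complex.abs_re_le_norm _).trans hdiff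
        rw [← map_sub, toComplex_re_int] at this
        exact_mod_cast this
      · have := (Complex.abs_im_le_norm _).trans hdiff
        rw [← map_sub, toComplex_im_int] at this
        exact_mod_cast this
    set o : O := ⟨((q - Z k).re, (q - Z k).im), by
      simp only [hO, Finset.mem_product, Finset.mem_Icc]
      exact ⟨abs_le.mp hoR.1, abs_le.mp hoR.2⟩⟩ with ho
    have hdvd := ht0 o tk (htmod k o)
    have hqeq : (z0 + ⟨(o : ℤ × ℤ).1, (o : ℤ × ℤ).2⟩) + (tk : GaussianInt) * v = q := by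
      have : (⟨(o : ℤ × ℤ).1, (o : ℤ × ℤ).2⟩ : GaussianInt) = q - Z k := rfl
      rw [this, hZ]; simp only [← htk]; ring
    rw [hqeq] at hdvd
    have hSo := hS _ (heS o).1
    have hnorm := prime_norm_eq hq hSo.2.2.1 hSo.2.2.2 hdvd
    have hqn : ‖GaussianInt.toComplex q‖ ≤ (w : ℝ) := by
      rw [← sq_le_sq₀ (norm_nonneg _) (Nat.cast_nonneg w), Complex.sq_norm,
        ← GaussianInt.intCast_real_norm, hnorm]
      exact_mod_cast hSo.2.1
    have := norm_le_insert (GaussianInt.toComplex q) (GaussianInt.toComplex (Z k))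
    have : (0 : ℝ) ≤ R := Nat.cast_nonneg R
    linarith
  have hfar : ‖GaussianInt.toComplex (Z 1)‖ > (w : ℝ) + 2 * R ∨
      ‖GaussianInt.toComplex (Z 0)‖ > (w : ℝ) + 2 * R := by
    by_contra hc
    push Not at hc
    have h1 : ‖GaussianInt.toComplex (Z 1) - GaussianInt.toComplex (Z 0)‖ ≥ (P : ℝ) := by
      rw [← map_sub]
      have : Z 1 - Z 0 = (P : GaussianInt) * v := by simp [hZ]; ring
      rw [this, map_mul, norm_mul, map_natCast, Complex.norm_natCast]
      refine le_mul_of_one_le_right (Nat.cast_nonneg _) ?_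
      rw [← sq_le_sq₀ zero_le_one (norm_nonneg _), one_pow, Complex.sq_norm,
        ← GaussianInt.intCast_real_norm]
      exact_mod_cast GaussianInt.norm_pos.mpr hv
    have h2 : w ^ 2 ≤ P := (Nat.pow_le_pow_right (by omega) hn2).trans hPlow
    have h3 : (w : ℝ) ^ 2 ≤ P := by exact_mod_cast h2
    have h4 : (4 * R + 50 : ℝ) ≤ w := by exact_mod_cast hw
    have h5 := norm_sub_le (GaussianInt.toComplex (Z 1)) (GaussianInt.toComplex (Z 0))
    nlinarith [hc.1, hc.2, Nat.cast_nonneg (α := ℝ) R]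
  obtain ⟨k, hk, hkfar⟩ : ∃ k, k ≤ 1 ∧ ‖GaussianInt.toComplex (Z k)‖ > (w : ℝ) + 2 * R := by
    rcases hfar with h | h
    · exact ⟨1, le_rfl, h⟩
    · exact ⟨0, by omega, h⟩
  refine ⟨((GaussianInt.toComplex (Z k) - c) * conj u).re, ?_, ?_, fun q hq1 hq2 hq => ?_⟩
  pick_goal 3
  · refine absurd (hZfacts k hk q ?_ hq2 hq) (not_le.mpr hkfar)
    rwa [show (GaussianInt.toComplex q - GaussianInt.toComplex (Z k)) * conj u =
      (GaussianInt.toComplex q - c) * conj u - (GaussianInt.toComplex (Z k) - c) * conj u by ring,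
      Complex.sub_re]
  all_goals
    set tk : ℕ := t2 + k * P with htk
    have htQ : tk ≤ Q := by
      have h1 : t2 < P := Nat.mod_lt _ hPpos
      have h2 : k * P ≤ 1 * P := by gcongr
      have h3 : P ≤ w ^ (2 * n) := by rw [pow_mul]; exact hPhigh
      omega
    have huu : u * conj u = 1 := by rw [Complex.mul_conj', hu]; simp
    have hdec : (GaussianInt.toComplex (Z k) - c) * conj u =
        (sb : ℂ) + (GaussianInt.toComplex z0 - x) * conj u +
          ((tk : ℝ) : ℂ) * (GaussianInt.toComplex v * conj u) := by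
      simp only [hZ, map_add, map_mul, map_natCast, hx, ← htk, Complex.ofReal_natCast]
      linear_combination (sb : ℂ) * huu
    rw [hdec, Complex.add_re, Complex.add_re, Complex.ofReal_re, Complex.re_ofReal_mul]
    have e1 : |((GaussianInt.toComplex z0 - x) * conj u).re| ≤ 1 := by
      refine (Complex.abs_re_le_norm _).trans ?_
      rw [norm_mul, Complex.norm_conj, hu, mul_one]; exact hz0x
    have e2 : 0 ≤ (tk : ℝ) * (GaussianInt.toComplex v * conj u).re :=
      mul_nonneg (Nat.cast_nonneg _) hvre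
    have e3 : (tk : ℝ) * (GaussianInt.toComplex v * conj u).re ≤
        (Q : ℝ) * (2 * ((Q : ℝ) + 1)) := by
      gcongr
      exact (le_abs_self _).trans hvreB
    linarith [abs_le.mp e1]

/-- The forward half of the flat moat theorem. -/
lemma path_forward (D W : ℝ) (hD : 0 ≤ D) (hW : 0 ≤ W) :
    ∃ T : ℝ, ∀ (u c : ℂ), ‖u‖ = 1 → ∀ (m : ℕ) (z : ℕ → GaussianInt),
      (∀ i ≤ m, Prime (z i)) →
      (∀ i < m, ‖GaussianInt.toComplex (z (i + 1)) - GaussianInt.toComplex (z i)‖ ≤ D) →
      (∀ i ≤ m, |((GaussianInt.toComplex (z i) - c) * conj u).im| ≤ W) →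
      ∀ i ≤ m, ((GaussianInt.toComplex (z i) - GaussianInt.toComplex (z 0)) * conj u).re ≤ T := by
  classical
  obtain ⟨T, hT⟩ := exists_cross_cut D W hD hW
  refine ⟨T + D + 2, fun u c hu m z hz hstep hstrip i hi => ?_⟩
  by_contra hc
  push Not at hc
  set S : ℕ → ℝ := fun j => ((GaussianInt.toComplex (z j) - c) * conj u).re with hSdef
  obtain ⟨s, hs1, hs2, hs⟩ := hT u c (S 0 + D + 2) hu
  have hsi : s < S i := by
    have : ((GaussianInt.toComplex (z i) - GaussianInt.toComplex (z 0)) * conj u).re =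
        S i - S 0 := by
      rw [hSdef]; simp only; rw [← Complex.sub_re]; ring_nf
    linarith
  have hex : ∃ j, s < S j := ⟨i, hsi⟩
  set j := Nat.find hex with hj
  have hjs : s < S j := Nat.find_spec hex
  have hji : j ≤ i := Nat.find_le hsi
  have hj0 : j ≠ 0 := fun h0 => by
    rw [h0] at hjs; linarith
  obtain ⟨j', hj'⟩ := Nat.exists_eq_succ_of_ne_zero hj0
  have hprev : S j' ≤ s := not_lt.mp (Nat.find_min hex (by omega))
  have hd : S (j' + 1) - S j' ≤ D := by
    refine le_trans ?_ (hstep j' (by omega))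
    rw [hSdef]; simp only; rw [← Complex.sub_re]
    refine (Complex.re_le_norm _).trans ?_
    rw [show (GaussianInt.toComplex (z (j' + 1)) - c) * conj u -
      (GaussianInt.toComplex (z j') - c) * conj u =
      (GaussianInt.toComplex (z (j' + 1)) - GaussianInt.toComplex (z j')) * conj u by ring,
      norm_mul, Complex.norm_conj, hu, mul_one]
  rw [hj'] at hjs
  refine hs (z (j' + 1)) ?_ (hstrip _ (by omega)) (hz _ (by omega))
  rw [abs_le]
  simp only [hSdef] at hjs hprev hd
  constructor <;> linarith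

/-- **Uniform flat moat.** A path of Gaussian primes with steps at most `D` lying in a straight
strip of half-width `W`, in any direction and position, has bounded diameter. -/
theorem flat_moat (D W : ℝ) :
    ∃ T : ℝ, ∀ (u c : ℂ), ‖u‖ = 1 → ∀ (m : ℕ) (z : ℕ → GaussianInt),
      (∀ i ≤ m, Prime (z i)) →
      (∀ i < m, ‖GaussianInt.toComplex (z (i + 1)) - GaussianInt.toComplex (z i)‖ ≤ D) →
      (∀ i ≤ m, |((GaussianInt.toComplex (z i) - c) * conj u).im| ≤ W) →
      ∀ i ≤ m, ‖GaussianInt.toComplex (z i) - GaussianInt.toComplex (z 0)‖ ≤ T := by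
  obtain ⟨T, hT⟩ := path_forward |D| |W| (abs_nonneg D) (abs_nonneg W)
  refine ⟨|T| + 2 * |W|, fun u c hu m z hz hstep hstrip i hi => ?_⟩
  have hstep' := fun i (hi : i < m) => (hstep i hi).trans (le_abs_self D)
  have hstrip' := fun i (hi : i ≤ m) => (hstrip i hi).trans (le_abs_self W)
  have h1 := hT u c hu m z hz hstep' hstrip' i hi
  have h2 := hT (-u) c (by rwa [norm_neg]) m z hz hstep'
    (fun i hi => by rw [map_neg, mul_neg, Complex.neg_im, abs_neg]; exact hstrip' i hi) i hi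
  rw [map_neg, mul_neg, Complex.neg_re] at h2
  have him : |((GaussianInt.toComplex (z i) - GaussianInt.toComplex (z 0)) * conj u).im| ≤
      2 * |W| := by
    rw [show (GaussianInt.toComplex (z i) - GaussianInt.toComplex (z 0)) * conj u =
      (GaussianInt.toComplex (z i) - c) * conj u - (GaussianInt.toComplex (z 0) - c) * conj u by
      ring, Complex.sub_im]
    exact (abs_sub _ _).trans (by linarith [hstrip' i hi, hstrip' 0 (Nat.zero_le m)])
  calc ‖GaussianInt.toComplex (z i) - GaussianInt.toComplex (z 0)‖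
      = ‖(GaussianInt.toComplex (z i) - GaussianInt.toComplex (z 0)) * conj u‖ := by
        rw [norm_mul, Complex.norm_conj, hu, mul_one]
    _ ≤ _ := (Complex.norm_le_abs_re_add_abs_im _).trans (by
        have : |((GaussianInt.toComplex (z i) - GaussianInt.toComplex (z 0)) * conj u).re| ≤ |T| :=
          abs_le.mpr ⟨by linarith [le_abs_self T], h1.trans (le_abs_self T)⟩
        linarith)

end Vale.Agent.P015
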