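import Mathlib
import Vale.Agent.P015.FlatMoat

/-!
# No walk to infinity near an asymptotically straight curve
-/

namespace Vale.Agent.P015

open ComplexConjugate

lemma finite_ball (M : ℝ) : {w : GaussianInt | ‖GaussianInt.toComplex w‖ ≤ M}.Finite := by
  apply Set.Finite.of_finite_image (f := fun w : GaussianInt => (w.re, w.im))
  · refine ((Set.finite_Icc (-⌈M⌉) ⌈M⌉).prod (Set.finite_Icc (-⌈M⌉) ⌈M⌉)).subset ?_
    rintro _ ⟨w, hw, rfl⟩
    have h1 := (Complex.abs_re_le_norm _).trans (hw : ‖GaussianInt.toComplex w‖ ≤ M)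
    have h2 := (Complex.abs_im_le_norm _).trans (hw : ‖GaussianInt.toComplex w‖ ≤ M)
    rw [toComplex_re_int] at h1
    rw [toComplex_im_int] at h2
    have hM := Int.le_ceil M
    simp only [Set.mem_prod, Set.mem_Icc]
    have e1 : |w.re| ≤ ⌈M⌉ := by exact_mod_cast h1.trans hM
    have e2 : |w.im| ≤ ⌈M⌉ := by exact_mod_cast h2.trans hM
    exact ⟨abs_le.mp e1, abs_le.mp e2⟩
  · intro a _ b _ h
    simp only [Prod.mk.injEq] at h
    exact Zsqrtd.ext h.1 h.2

/-- An infinite path with distinct vertices and bounded steps cannot stay vertically close to the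
graph, in any rotated frame, of a function that is affine up to a bounded error on every
bounded scale far from the origin. -/
theorem no_path_near_curve (D W B : ℝ) (u c : ℂ) (hu : ‖u‖ = 1) (f : ℝ → ℝ)
    (hf : ∀ L : ℝ, ∃ X : ℝ, ∀ x : ℝ, X ≤ |x| → ∃ a : ℝ, ∀ h : ℝ, |h| ≤ L →
      |f (x + h) - f x - a * h| ≤ B)
    (z : ℕ → GaussianInt) (hinj : Function.Injective z) (hz : ∀ i, Prime (z i))
    (hstep : ∀ i, ‖GaussianInt.toComplex (z (i + 1)) - GaussianInt.toComplex (z i)‖ ≤ D)
    (hnear : ∀ i, |((GaussianInt.toComplex (z i) - c) * conj u).im -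
      f ((GaussianInt.toComplex (z i) - c) * conj u).re| ≤ W) : False := by
  classical
  -- coordinates
  set F : ℕ → ℂ := fun i => (GaussianInt.toComplex (z i) - c) * conj u with hF
  have hFd : ∀ i j, ‖F i - F j‖ = ‖GaussianInt.toComplex (z i) - GaussianInt.toComplex (z j)‖ := by
    intro i j
    rw [hF]; simp only
    rw [← sub_mul, sub_sub_sub_cancel_right, norm_mul, Complex.norm_conj, hu, mul_one]
  -- the path is unbounded, also after any time
  have hunb : ∀ k : ℕ, ∀ M : ℝ, ∃ j, k ≤ j ∧ M < ‖F j - F k‖ := by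
    intro k M
    by_contra hcon
    simp only [not_exists, not_and, not_lt] at hcon
    refine Set.infinite_range_of_injective (f := fun i => z (k + i))
      (fun a b h => by simpa using hinj h)
      ((finite_ball (M + ‖GaussianInt.toComplex (z k)‖)).subset ?_)
    rintro _ ⟨i, rfl⟩
    have h1 := hcon (k + i) (Nat.le_add_right k i)
    rw [hFd] at h1
    have h2 := norm_le_insert' (GaussianInt.toComplex (z (k + i))) (GaussianInt.toComplex (z k))
    show ‖GaussianInt.toComplex (z (k + i))‖ ≤ M + ‖GaussianInt.toComplex (z k)‖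
    linarith
  obtain ⟨T, hT⟩ := flat_moat D (W + B + |W|)
  have hD : 0 ≤ D := (norm_nonneg _).trans (hstep 0)
  obtain ⟨X, hX⟩ := hf (T + D)
  -- some point has large horizontal coordinate
  have hfarx : ∃ k, X ≤ |(F k).re| := by
    by_contra hcon
    simp only [not_exists, not_le] at hcon
    obtain ⟨T', hT'⟩ := flat_moat D X
    obtain ⟨j, -, hj⟩ := hunb 0 T'
    have hu' : ‖Complex.I * u‖ = 1 := by rw [norm_mul, Complex.norm_I, hu, one_mul]
    have := hT' (Complex.I * u) c hu' j z (fun i _ => hz i) (fun i _ => hstep i) (fun i _ => by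
      have e : (GaussianInt.toComplex (z i) - c) * conj (Complex.I * u) = -Complex.I * F i := by
        rw [map_mul, Complex.conj_I, hF]; ring
      rw [e, Complex.mul_im]
      simpa using (hcon i).le) j le_rfl
    rw [← hFd] at this
    linarith
  obtain ⟨k, hk⟩ := hfarx
  obtain ⟨a, ha⟩ := hX _ hk
  -- first exit from the ball of radius `T`
  have hex : ∃ j, T < ‖F (k + j) - F k‖ := by
    obtain ⟨j, hkj, hj⟩ := hunb k T
    exact ⟨j - k, by rwa [Nat.add_sub_cancel' hkj]⟩
  set m := Nat.find hex with hm
  have hexit : T < ‖F (k + m) - F k‖ := Nat.find_spec hex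
  have hin : ∀ i ≤ m, ‖F (k + i) - F k‖ ≤ max 0 (T + D) := by
    intro i hi
    rcases i with _ | i
    · simp
    · refine le_max_of_le_right ?_
      have h1 : ‖F (k + i) - F k‖ ≤ T := not_lt.mp (Nat.find_min hex (by omega))
      have h2 : ‖F (k + i + 1) - F (k + i)‖ ≤ D := by rw [hFd]; exact hstep _
      have h3 := norm_sub_le_norm_sub_add_norm_sub (F (k + i + 1)) (F (k + i)) (F k)
      rw [← Nat.add_assoc]
      linarith
  -- the tilted strip
  set v : ℂ := 1 + (a : ℂ) * Complex.I with hv
  have hv1 : 1 ≤ ‖v‖ := by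
    refine le_trans ?_ (Complex.abs_re_le_norm v)
    simp [hv]
  set u' : ℂ := u * (v / (‖v‖ : ℂ)) with hu'def
  have hu' : ‖u'‖ = 1 := by
    rw [hu'def, norm_mul, hu, one_mul, norm_div, Complex.norm_real, Real.norm_eq_abs,
      abs_norm, div_self (by linarith)]
  set c' : ℂ := c + u * ⟨(F k).re, f (F k).re⟩ with hc'
  have hstrip : ∀ i ≤ m, |((GaussianInt.toComplex (z (k + i)) - c') * conj u').im| ≤
      W + B + |W| := by
    intro i hi
    have huu : u * conj u = 1 := by rw [Complex.mul_conj', hu]; simp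
    have e : (GaussianInt.toComplex (z (k + i)) - c') * conj u' =
        (F (k + i) - ⟨(F k).re, f (F k).re⟩) * (conj v / (‖v‖ : ℂ)) := by
      rw [hu'def, hc', hF, map_mul, map_div₀, Complex.conj_ofReal]
      simp only
      linear_combination -(⟨((GaussianInt.toComplex (z k) - c) * conj u).re,
        f ((GaussianInt.toComplex (z k) - c) * conj u).re⟩ : ℂ) * (conj v / (‖v‖ : ℂ)) * huu
    rw [e, ← mul_div_assoc, Complex.div_ofReal_im, abs_div, abs_norm]
    have him : ((F (k + i) - ⟨(F k).re, f (F k).re⟩) * conj v).im =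
        ((F (k + i)).im - f (F k).re) - a * ((F (k + i)).re - (F k).re) := by
      simp [hv, Complex.mul_im, Complex.sub_re, Complex.sub_im]
      ring
    rw [him]
    refine (div_le_self (abs_nonneg _) hv1).trans ?_
    have hh : |(F (k + i)).re - (F k).re| ≤ max 0 (T + D) := by
      rw [← Complex.sub_re]; exact (Complex.abs_re_le_norm _).trans (hin i hi)
    have h1 : |(F (k + i)).im - f (F (k + i)).re| ≤ W := hnear (k + i)
    rcases le_total 0 (T + D) with hTD | hTD
    · rw [max_eq_right hTD] at hh
      have h2 := ha _ hh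
      rw [add_sub_cancel] at h2
      have := abs_add_le ((F (k + i)).im - f (F (k + i)).re)
        (f (F (k + i)).re - f (F k).re - a * ((F (k + i)).re - (F k).re))
      rw [show (F (k + i)).im - f (F (k + i)).re +
        (f (F (k + i)).re - f (F k).re - a * ((F (k + i)).re - (F k).re)) =
        (F (k + i)).im - f (F k).re - a * ((F (k + i)).re - (F k).re) by ring] at this
      have := abs_nonneg W
      linarith
    · rw [max_eq_left hTD] at hh
      have h0 : (F (k + i)).re = (F k).re := by
        have := abs_nonpos_iff.mp hh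
        linarith
      rw [h0] at h1 ⊢
      rw [sub_self, mul_zero, sub_zero]
      have hB : 0 ≤ B := by
        obtain ⟨X0, hX0⟩ := hf 0
        obtain ⟨a0, ha0⟩ := hX0 X0 (le_abs_self X0)
        exact (abs_nonneg _).trans (ha0 0 (by simp))
      have := abs_nonneg W
      linarith
  have := hT u' c' hu' m (fun i => z (k + i)) (fun i _ => hz _)
    (fun i _ => by rw [← Nat.add_assoc]; exact hstep _) hstrip m le_rfl
  simp only [Nat.add_zero] at this
  rw [← hFd] at this
  linarith

end Vale.Agent.P015
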